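import Mathlib

/-!
# Packing lemma for unitaries of a tracial algebra: spectral roots and averages over phases
-/

namespace Vale.Agent.P085.Encode

open scoped ComplexConjugate
open Finset

variable {A : Type*} [Ring A] [StarRing A] [Algebra ℂ A] [StarModule ℂ A]

/-- a tracial state -/
structure TrState (A : Type*) [Ring A] [StarRing A] [Algebra ℂ A] where
  φ : A →ₗ[ℂ] ℂ
  comm : ∀ a b, φ (a * b) = φ (b * a)
  star_eq : ∀ a, φ (star a) = conj (φ a)
  pos : ∀ a, 0 ≤ (φ (star a * a)).re
  one : φ 1 = 1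

namespace TrState

variable (τ : TrState A)

/-- squared trace norm -/
noncomputable def sq (a : A) : ℝ := (τ.φ (star a * a)).re

lemma sq_nonneg (a : A) : 0 ≤ τ.sq a := τ.pos a

lemma sq_zero : τ.sq 0 = 0 := by simp [sq]

lemma re_swap (a b : A) : (τ.φ (star b * a)).re = (τ.φ (star a * b)).re := by
  rw [show star b * a = star (star a * b) by rw [star_mul, star_star], τ.star_eq, Complex.conj_re]

lemma sq_add (a b : A) : τ.sq (a + b) = τ.sq a + τ.sq b + 2 * (τ.φ (star a * b)).re := by
  simp only [sq, star_add, add_mul, mul_add, map_add, Complex.add_re, re_swap τ a b]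
  ring

lemma sq_sub (a b : A) : τ.sq (a - b) = τ.sq a + τ.sq b - 2 * (τ.φ (star a * b)).re := by
  simp only [sq, star_sub, sub_mul, mul_sub, map_sub, Complex.sub_re, re_swap τ a b]
  ring

lemma sq_smul (c : ℂ) (a : A) : τ.sq (c • a) = Complex.normSq c * τ.sq a := by
  simp only [sq, star_smul, smul_mul_assoc, mul_smul_comm, smul_smul, map_smul, smul_eq_mul]
  rw [mul_comm c (star c), Complex.star_def, ← Complex.normSq_eq_conj_mul_self,
    Complex.re_ofReal_mul]

/-- weighted triangle inequality -/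
lemma sq_add_le (a b : A) {t : ℝ} (ht : 0 < t) :
    τ.sq (a + b) ≤ (1 + t) * τ.sq a + (1 + 1 / t) * τ.sq b := by
  have h := τ.sq_nonneg ((t : ℂ) • a - b)
  rw [sq_sub, sq_smul, star_smul, smul_mul_assoc, map_smul, smul_eq_mul,
    Complex.star_def, Complex.conj_ofReal, Complex.re_ofReal_mul, Complex.normSq_ofReal] at h
  rw [sq_add]
  have h2 : 2 * (τ.φ (star a * b)).re ≤ t * τ.sq a + 1 / t * τ.sq b := by
    rw [← mul_le_mul_iff_right₀ ht]
    field_simp
    nlinarith
  linarith

lemma sq_add_le_two (a b : A) : τ.sq (a + b) ≤ 2 * τ.sq a + 2 * τ.sq b := by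
  have h := τ.sq_add_le a b one_pos
  norm_num at h
  exact h

lemma sq_neg (a : A) : τ.sq (-a) = τ.sq a := by simp [sq]

lemma sq_sub_comm (a b : A) : τ.sq (a - b) = τ.sq (b - a) := by rw [← neg_sub, sq_neg]

lemma sq_unitary_mul {u : A} (hu : u ∈ unitary A) (a : A) : τ.sq (u * a) = τ.sq a := by
  simp only [sq, star_mul, mul_assoc]
  rw [← mul_assoc (star u), Unitary.star_mul_self_of_mem hu, one_mul]

lemma sq_mul_unitary {u : A} (hu : u ∈ unitary A) (a : A) : τ.sq (a * u) = τ.sq a := by
  simp only [sq, star_mul, mul_assoc]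
  rw [τ.comm, mul_assoc, mul_assoc, Unitary.mul_star_self_of_mem hu, mul_one]

lemma sq_of_unitary {u : A} (hu : u ∈ unitary A) : τ.sq u = 1 := by
  simp [sq, Unitary.star_mul_self_of_mem hu, τ.one]

lemma sq_sub_unitary {u v : A} (hu : u ∈ unitary A) (hv : v ∈ unitary A) :
    τ.sq (u - v) = 2 - 2 * (τ.φ (star v * u)).re := by
  rw [sq_sub, sq_of_unitary τ hu, sq_of_unitary τ hv, re_swap τ v u]
  ring

lemma sq_prod_sub {ι : Type*} (f g : ι → A) : ∀ l : List ι,
    (∀ i ∈ l, f i ∈ unitary A) → (∀ i ∈ l, g i ∈ unitary A) →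
    τ.sq ((l.map f).prod - (l.map g).prod) ≤
      l.length * (l.map fun i => τ.sq (f i - g i)).sum := by
  intro l
  induction l with
  | nil => intro _ _; simp [sq_zero]
  | cons i l ih =>
    intro hf hg
    have hfi := hf i List.mem_cons_self
    have hgl : (l.map g).prod ∈ unitary A := Submonoid.list_prod_mem _ fun a ha => by
      obtain ⟨j, hj, rfl⟩ := List.mem_map.1 ha
      exact hg j (List.mem_cons_of_mem _ hj)
    have ih := ih (fun j hj => hf j (List.mem_cons_of_mem _ hj))
      (fun j hj => hg j (List.mem_cons_of_mem _ hj))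
    simp only [List.map_cons, List.prod_cons, List.sum_cons, List.length_cons, Nat.cast_succ]
    have e : f i * (l.map f).prod - g i * (l.map g).prod =
        f i * ((l.map f).prod - (l.map g).prod) + (f i - g i) * (l.map g).prod := by noncomm_ring
    rw [e]
    rcases Nat.eq_zero_or_pos l.length with hn | hn
    · obtain rfl := List.eq_nil_of_length_eq_zero hn
      simp
    have hn' : (0:ℝ) < l.length := by exact_mod_cast hn
    refine (τ.sq_add_le _ _ (t := 1 / (l.length : ℝ)) (by positivity)).trans ?_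
    rw [sq_unitary_mul τ hfi, sq_mul_unitary τ hgl, one_div_one_div]
    have h1 : (1 + 1 / (l.length : ℝ)) * τ.sq ((l.map f).prod - (l.map g).prod) ≤
        (1 + 1 / (l.length : ℝ)) * (l.length * (l.map fun j => τ.sq (f j - g j)).sum) := by
      gcongr
    have h2 : (1 + 1 / (l.length : ℝ)) * (l.length * (l.map fun j => τ.sq (f j - g j)).sum) =
        (l.length + 1) * (l.map fun j => τ.sq (f j - g j)).sum := by field_simp
    linarith

end TrState

/-! ### functions of a finite spectral family -/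

/-- a resolution of the identity -/
structure Res {ι : Type*} [Fintype ι] (E : ι → A) : Prop where
  star_eq : ∀ i, star (E i) = E i
  idem : ∀ i, E i * E i = E i
  orth : ∀ i j, i ≠ j → E i * E j = 0
  total : ∑ i, E i = 1

section Spec

variable {ι : Type*} [Fintype ι] {E : ι → A}

/-- `∑ f i • E i` -/
def spec (E : ι → A) (f : ι → ℂ) : A := ∑ i, f i • E i

lemma spec_mul (hE : Res E) (f g : ι → ℂ) : spec E f * spec E g = spec E (f * g) := by
  simp only [spec, Finset.sum_mul, Finset.mul_sum, smul_mul_assoc, mul_smul_comm, smul_smul]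
  refine Finset.sum_congr rfl fun i _ => ?_
  rw [Finset.sum_eq_single i (fun j _ hj => by rw [hE.orth j i hj, smul_zero])
    (fun h => absurd (Finset.mem_univ i) h), hE.idem, Pi.mul_apply]
  rw [smul_smul, mul_comm]

lemma spec_one (hE : Res E) : spec E 1 = 1 := by simp [spec, hE.total]

lemma spec_pow (hE : Res E) (f : ι → ℂ) : ∀ n : ℕ, spec E f ^ n = spec E (f ^ n)
  | 0 => by rw [pow_zero, pow_zero, spec_one hE]
  | n + 1 => by rw [pow_succ, spec_pow hE f n, spec_mul hE, pow_succ]

lemma spec_star (hE : Res E) (f : ι → ℂ) : star (spec E f) = spec E (fun i => conj (f i)) := by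
  simp [spec, star_sum, star_smul, hE.star_eq, Complex.star_def]

lemma spec_unitary (hE : Res E) {f : ι → ℂ} (hf : ∀ i, ‖f i‖ = 1) : spec E f ∈ unitary A := by
  have h1 : ∀ i, conj (f i) * f i = 1 := fun i => by rw [Complex.conj_mul', hf i]; simp
  rw [Unitary.mem_iff, spec_star hE, spec_mul hE, spec_mul hE]
  refine ⟨?_, ?_⟩ <;> (rw [← spec_one hE]; congr 1; funext i)
  · exact h1 i
  · rw [Pi.mul_apply, mul_comm]; exact h1 i

end Spec

/-! ### the phase root -/

section Root

variable (q L : ℕ)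

/-- `exp (2 π i rep(j) / (q L))` with `rep` the representative of least absolute value -/
noncomputable def rt (j : ZMod q) : ℂ :=
  Complex.exp (((2 * Real.pi * (j.valMinAbs : ℝ) / (q * L) : ℝ) : ℂ) * Complex.I)

lemma norm_rt (j : ZMod q) : ‖rt q L j‖ = 1 := Complex.norm_exp_ofReal_mul_I _

lemma rt_pow [NeZero q] (hL : 0 < L) (j : ZMod q) : rt q L j ^ L = ZMod.stdAddChar j := by
  conv_rhs => rw [← ZMod.coe_valMinAbs j]
  rw [ZMod.stdAddChar_coe, rt, ← Complex.exp_nat_mul]
  congr 1
  have hq : (q : ℂ) ≠ 0 := Nat.cast_ne_zero.2 (NeZero.ne q)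
  have hL' : (L : ℂ) ≠ 0 := Nat.cast_ne_zero.2 hL.ne'
  push_cast
  field_simp

/-- the mean of the roots -/
noncomputable def rtMean [NeZero q] : ℝ := (∑ j : ZMod q, (rt q L j).re) / q

lemma sum_rt [NeZero q] (hq : Odd q) : ∑ j : ZMod q, rt q L j = ((q * rtMean q L : ℝ) : ℂ) := by
  have hq0 : (q : ℝ) ≠ 0 := Nat.cast_ne_zero.2 (NeZero.ne q)
  have hneg : ∀ j : ZMod q, rt q L (-j) = conj (rt q L j) := by
    intro j
    have h : (-j).valMinAbs = -j.valMinAbs := by
      rcases eq_or_ne j 0 with rfl | hj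
      · simp
      refine ZMod.valMinAbs_neg_of_ne_half fun h2 => ?_
      obtain ⟨k, hk⟩ := hq
      omega
    rw [rt, rt, h, ← Complex.exp_conj, map_mul, Complex.conj_ofReal, Complex.conj_I]
    push_cast
    ring_nf
  apply Complex.ext
  · rw [Complex.re_sum, Complex.ofReal_re, rtMean]
    field_simp
  · have h : ∑ j : ZMod q, (rt q L j).im = ∑ j : ZMod q, (rt q L (-j)).im :=
      (Equiv.sum_comp (Equiv.neg (ZMod q)) fun j => (rt q L j).im).symm
    rw [Complex.im_sum, Complex.ofReal_im]
    simp only [hneg, Complex.conj_im, Finset.sum_neg_distrib] at h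
    linarith

lemma rtMean_bounds [NeZero q] (hL : 3 ≤ L) :
    0 ≤ rtMean q L ∧ rtMean q L ≤ 1 ∧ 1 - rtMean q L ≤ 5 / (L : ℝ) ^ 2 := by
  have hq : (0:ℝ) < q := Nat.cast_pos.2 (Nat.pos_of_ne_zero (NeZero.ne q))
  have hL' : (3:ℝ) ≤ L := by exact_mod_cast hL
  have hcos : ∀ j : ZMod q, 1 - 5 / (L:ℝ) ^ 2 ≤ (rt q L j).re ∧ (rt q L j).re ≤ 1 := by
    intro j
    rw [rt, Complex.exp_ofReal_mul_I_re]
    refine ⟨?_, Real.cos_le_one _⟩
    set θ := 2 * Real.pi * (j.valMinAbs : ℝ) / (q * L)
    have hv : |(j.valMinAbs : ℝ)| ≤ q / 2 := by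
      have h := ZMod.natAbs_valMinAbs_le j
      have h2 : ((j.valMinAbs.natAbs : ℕ) : ℝ) ≤ (q : ℝ) / 2 := by
        refine (Nat.cast_le.2 h).trans ?_
        exact Nat.cast_div_le.trans (by norm_num)
      rwa [Nat.cast_natAbs, Int.cast_abs] at h2
    have hθ : |θ| ≤ Real.pi / L := by
      simp only [θ]
      rw [abs_div, abs_mul, abs_of_pos (by positivity : (0:ℝ) < 2 * Real.pi),
        abs_of_pos (by positivity : (0:ℝ) < q * L), div_le_div_iff₀ (by positivity) (by positivity)]
      have := mul_le_mul_of_nonneg_left hv (show 0 ≤ 2 * Real.pi * L by positivity)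
      linarith
    have h1 := Real.one_sub_sq_div_two_le_cos (x := θ)
    have h2 : θ ^ 2 ≤ (Real.pi / L) ^ 2 := by rw [← sq_abs]; gcongr
    have h3 : Real.pi ^ 2 ≤ 10 := by nlinarith [Real.pi_le_four, Real.pi_lt_d2, Real.pi_pos]
    have h4 : (Real.pi / L) ^ 2 ≤ 10 / (L:ℝ) ^ 2 := by rw [div_pow]; gcongr
    have h5 : 5 / (L:ℝ) ^ 2 = 10 / (L:ℝ) ^ 2 / 2 := by ring
    linarith
  have h59 : 5 / (L:ℝ) ^ 2 ≤ 1 := by rw [div_le_one (by positivity)]; nlinarith
  have hlo : (1 - 5 / (L:ℝ) ^ 2) * q ≤ ∑ j : ZMod q, (rt q L j).re := by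
    refine le_trans (le_of_eq ?_) (Finset.sum_le_sum fun j _ => (hcos j).1)
    simp [ZMod.card]; ring
  have hhi : ∑ j : ZMod q, (rt q L j).re ≤ q := by
    refine (Finset.sum_le_sum fun j _ => (hcos j).2).trans (le_of_eq ?_)
    simp [ZMod.card]
  unfold rtMean
  refine ⟨div_nonneg ?_ hq.le, (div_le_one hq).2 hhi, ?_⟩
  · exact le_trans (mul_nonneg (by linarith) hq.le) hlo
  · have : 1 - 5 / (L:ℝ) ^ 2 ≤ (∑ j : ZMod q, (rt q L j).re) / q := (le_div_iff₀ hq).2 hlo
    linarith

end Root

/-! ### averages over independent phases -/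

section Avg

variable {T : Type*} [Fintype T] [DecidableEq T] {q : T → ℕ} [∀ t, NeZero (q t)]

/-- average over all phases -/
noncomputable def avg (F : (∀ t, ZMod (q t)) → A) : A :=
  ((Fintype.card (∀ t, ZMod (q t)) : ℂ))⁻¹ • ∑ k, F k

/-- `F` does not read the phase of `t` -/
def Indep (t : T) (F : (∀ t, ZMod (q t)) → A) : Prop :=
  ∀ k a, F (Function.update k t a) = F k

omit [StarRing A] [StarModule ℂ A] in
lemma avg_mul_const (t : T) {X Y : (∀ t, ZMod (q t)) → A} (hX : Indep t X) (hY : Indep t Y)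
    (f : ZMod (q t) → A) {c : ℂ} (hf : ∑ a, f a = ((q t : ℂ) * c) • 1) :
    avg (fun k => X k * f (k t) * Y k) = c • avg (fun k => X k * Y k) := by
  have hq : (q t : ℂ) ≠ 0 := Nat.cast_ne_zero.2 (NeZero.ne _)
  have key : (q t : ℂ) • ∑ k, X k * f (k t) * Y k =
      ((q t : ℂ) * c) • ∑ k, X k * Y k := by
    have h1 : (q t : ℂ) • ∑ k, X k * f (k t) * Y k =
        ∑ k, ∑ a : ZMod (q t), X k * f a * Y k := by
      rw [← (Equiv.piSplitAt t fun t => ZMod (q t)).symm.sum_comp,
        ← (Equiv.piSplitAt t fun t => ZMod (q t)).symm.sum_comp, Fintype.sum_prod_type,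
        Fintype.sum_prod_type]
      have hX' : ∀ a b r, X ((Equiv.piSplitAt t fun t => ZMod (q t)).symm (a, r)) =
          X ((Equiv.piSplitAt t fun t => ZMod (q t)).symm (b, r)) ∧
          Y ((Equiv.piSplitAt t fun t => ZMod (q t)).symm (a, r)) =
          Y ((Equiv.piSplitAt t fun t => ZMod (q t)).symm (b, r)) := by
        intro a b r
        set k := (Equiv.piSplitAt t fun t => ZMod (q t)).symm (b, r)
        have e : (Equiv.piSplitAt t fun t => ZMod (q t)).symm (a, r) = Function.update k t a := by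
          funext s
          by_cases hs : s = t
          · subst hs; simp [Equiv.piSplitAt]
          · simp [k, Equiv.piSplitAt, hs]
        rw [e]
        exact ⟨hX k a, hY k a⟩
      rw [Finset.sum_comm]
      conv_rhs => rw [Finset.sum_comm]
      rw [Finset.smul_sum]
      refine Finset.sum_congr rfl fun r _ => ?_
      have hst : ∀ a, ((Equiv.piSplitAt t fun t => ZMod (q t)).symm (a, r)) t = a := fun a => by
        simp [Equiv.piSplitAt]
      simp only [hst]
      rw [Finset.sum_congr rfl fun b _ => Finset.sum_congr rfl fun a _ => by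
        rw [(hX' b a r).1, (hX' b a r).2]]
      simp [Finset.sum_const, ZMod.card, ← Nat.cast_smul_eq_nsmul ℂ]
    rw [h1, Finset.smul_sum]
    refine Finset.sum_congr rfl fun k _ => ?_
    rw [← Finset.sum_mul, ← Finset.mul_sum, hf, mul_smul_comm, mul_one, smul_mul_assoc]
  rw [mul_smul] at key
  have key' : ∑ k, X k * f (k t) * Y k = c • ∑ k, X k * Y k := smul_right_injective A hq key
  simp only [avg, key', smul_comm c]

omit [StarRing A] [StarModule ℂ A] in
/-- replace in a product every factor reading a phase other than `t` by its scalar mean -/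
lemma avg_word (t : T) : ∀ (l : List (Σ s : T, ZMod (q s) → A)) (c : T → ℂ),
    (∀ x ∈ l, x.1 ≠ t → ∑ a, x.2 a = ((q x.1 : ℂ) * c x.1) • 1) →
    ((l.map Sigma.fst).filter fun s => decide (s ≠ t)).Nodup →
    ∀ X : (∀ t, ZMod (q t)) → A, (∀ x ∈ l, x.1 ≠ t → Indep x.1 X) →
      avg (fun k => X k * (l.map fun x => x.2 (k x.1)).prod) =
      (((l.map Sigma.fst).filter fun s => decide (s ≠ t)).map c).prod •
        avg (fun k => X k * ((l.filter fun x => decide (x.1 = t)).map fun x => x.2 (k x.1)).prod) := by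
  intro l c
  induction l with
  | nil => intro _ _ X _; simp
  | cons x l ih =>
    intro hm hnd X hX
    have hm' : ∀ y ∈ l, y.1 ≠ t → ∑ a, y.2 a = ((q y.1 : ℂ) * c y.1) • 1 :=
      fun y hy => hm y (List.mem_cons_of_mem _ hy)
    by_cases hx : x.1 = t
    · simp only [List.map_cons, List.filter_cons, hx, ne_eq, not_true_eq_false, decide_false,
        decide_true, if_true, Bool.false_eq_true, if_false, List.prod_cons, ← mul_assoc] at hnd ⊢
      refine ih hm' hnd (fun k => X k * x.2 (k x.1)) fun y hy hyt k a => ?_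
      simp only
      rw [hX y (List.mem_cons_of_mem _ hy) hyt k a, Function.update_of_ne (by rw [hx]; exact Ne.symm hyt)]
    · simp only [List.map_cons, List.filter_cons, hx, ne_eq, not_false_eq_true, decide_false,
        decide_true, if_true, Bool.false_eq_true, if_false, List.prod_cons, List.nodup_cons] at hnd ⊢
      have hrest : Indep x.1 fun k => (l.map fun y => y.2 (k y.1)).prod := by
        intro k a
        simp only
        congr 1
        refine List.map_congr_left fun y hy => ?_
        rw [Function.update_of_ne]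
        intro he
        refine hnd.1 (List.mem_filter.2 ⟨List.mem_map.2 ⟨y, hy, he⟩, by simpa using hx⟩)
      have hstep := avg_mul_const (X := X) (Y := fun k => (l.map fun y => y.2 (k y.1)).prod)
        x.1 (hX x List.mem_cons_self hx) hrest x.2 (hm x List.mem_cons_self hx)
      simp only [← mul_assoc]
      rw [hstep, ih hm' hnd.2 X (fun y hy => hX y (List.mem_cons_of_mem _ hy)), smul_smul]

end Avg

end Vale.Agent.P085.Encode
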