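import Vale.Agent.P085.Encode.Statement

/-!
# Nested stages: `C * P ^ 2` targets from `P ^ 2` unitaries
-/

namespace Vale.Agent.P085.Encode

universe v

/-- windows of `L` consecutive abscissae on the lines of slope below `d` -/
def seg (P L d : ℕ) (t : Fin d × ZMod P × Fin (P / L)) : List (Fin P × ZMod P) :=
  List.ofFn fun s : Fin L =>
    (⟨t.2.2.1 * L + s.1, by
        have h1 := Nat.mul_le_mul_right L t.2.2.2
        have h2 := Nat.div_mul_le_self P L
        rw [Nat.succ_mul] at h1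
        omega⟩,
      (t.1.1 : ZMod P) * ((t.2.2.1 * L + s.1 : ℕ) : ZMod P) + t.2.1)

lemma mem_seg {P L d : ℕ} {t : Fin d × ZMod P × Fin (P / L)} {e : Fin P × ZMod P}
    (h : e ∈ seg P L d t) :
    e.1.1 / L = t.2.2.1 ∧ e.2 = (t.1.1 : ZMod P) * (e.1.1 : ZMod P) + t.2.1 := by
  obtain ⟨s, rfl⟩ := List.mem_ofFn.1 h
  refine ⟨?_, rfl⟩
  simp only
  rw [mul_comm, Nat.mul_add_div (Nat.lt_of_le_of_lt (Nat.zero_le _) s.2), Nat.div_eq_of_lt s.2,
    add_zero]

lemma seg_lines {P L d : ℕ} (hP : P.Prime) [NeZero P] (hd : d ≤ P) : Lines (seg P L d) L d := by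
  have : Fact P.Prime := ⟨hP⟩
  refine ⟨fun t => by simp [seg], fun t => ?_, ?_, ?_⟩
  · refine List.nodup_ofFn.2 fun s s' h => ?_
    simp only [Prod.mk.injEq, Fin.mk.injEq] at h
    exact Fin.ext (by omega)
  · rintro ⟨a, b, w⟩ ⟨a', b', w'⟩ hne e e' he he2 he' he'2
    obtain ⟨hw, hy⟩ := mem_seg he
    obtain ⟨hw', hy'⟩ := mem_seg he2
    obtain ⟨hv, hz⟩ := mem_seg he'
    obtain ⟨hv', hz'⟩ := mem_seg he'2
    simp only at hw hw' hy hy' hz hz'
    have hmul : ((a.1 : ZMod P) - (a'.1 : ZMod P)) *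
        ((e.1.1 : ZMod P) - (e'.1.1 : ZMod P)) = 0 := by linear_combination hz - hy + hy' - hz'
    rcases mul_eq_zero.1 hmul with ha | hx
    · exfalso
      refine hne ?_
      have ha' := congrArg ZMod.val (sub_eq_zero.1 ha)
      rw [ZMod.val_natCast, ZMod.val_natCast, Nat.mod_eq_of_lt (a.2.trans_le hd),
        Nat.mod_eq_of_lt (a'.2.trans_le hd)] at ha'
      have hb : b = b' := by
        rw [ha'] at hy
        linear_combination hy' - hy
      exact Prod.ext (Fin.ext ha') (Prod.ext hb (Fin.ext (hw.symm.trans hw')))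
    · have hx' := congrArg ZMod.val (sub_eq_zero.1 hx)
      rw [ZMod.val_natCast, ZMod.val_natCast, Nat.mod_eq_of_lt e.1.2,
        Nat.mod_eq_of_lt e'.1.2] at hx'
      exact Prod.ext (Fin.ext hx') (by rw [hy, hz, hx'])
  · intro e
    calc _ ≤ (Finset.univ : Finset (Fin d)).card := by
          refine Finset.card_le_card_of_injOn (fun t => t.1) (fun _ _ => Finset.mem_univ _) ?_
          rintro ⟨a, b, w⟩ ht ⟨a', b', w'⟩ ht' (rfl : a = a')
          simp only [Finset.coe_filter, Finset.mem_univ, true_and, Set.mem_setOf_eq] at ht ht'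
          obtain ⟨hw, hy⟩ := mem_seg ht
          obtain ⟨hw', hy'⟩ := mem_seg ht'
          have hb : b = b' := add_left_cancel (hy.symm.trans hy')
          exact Prod.ext rfl (Prod.ext hb (Fin.ext (hw.symm.trans hw')))
      _ = d := by simp

variable {A : Type v} [Ring A] [StarRing A] [Algebra ℂ A] [StarModule ℂ A]

/-- the total movement of the lines after a movement of the slots -/
lemma sum_sq_prod_sub {S T : Type*} [Fintype S] [Fintype T] [DecidableEq S] (τ : TrState A)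
    {line : T → List S} {L d : ℕ} (hl : Lines line L d) (f g : S → A)
    (hf : ∀ e, f e ∈ unitary A) (hg : ∀ e, g e ∈ unitary A) :
    ∑ t, τ.sq (((line t).map f).prod - ((line t).map g).prod) ≤
      L * (d * ∑ e, τ.sq (f e - g e)) := by
  have h1 : ∀ t, τ.sq (((line t).map f).prod - ((line t).map g).prod) ≤
      L * ∑ e, if e ∈ line t then τ.sq (f e - g e) else 0 := by
    intro t
    refine (τ.sq_prod_sub f g _ (fun i _ => hf i) (fun i _ => hg i)).trans (le_of_eq ?_)
    rw [hl.len, ← List.sum_toFinset _ (hl.nodup t), ← Finset.sum_filter]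
    congr 2
    ext e
    simp
  refine (Finset.sum_le_sum fun t _ => h1 t).trans ?_
  rw [← Finset.mul_sum, Finset.sum_comm, Finset.mul_sum (a := (d : ℝ))]
  gcongr with e
  rw [← Finset.sum_filter, Finset.sum_const, nsmul_eq_mul]
  exact mul_le_mul_of_nonneg_right (by exact_mod_cast hl.deg e) (τ.sq_nonneg _)

/-- `J` groups of targets, the earlier groups on shorter lines -/
theorem groups (K : ℕ) (hK : 0 < K) : ∀ (J : ℕ) (δ : ℝ), 0 < δ → ∃ P0 : ℕ, ∀ P : ℕ, P.Prime →
    P0 ≤ P → ∀ [NeZero P], ∀ (A : Type v) [Ring A] [StarRing A] [Algebra ℂ A] [StarModule ℂ A]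
    (τ : TrState A), (∀ θ : ℝ, 0 < θ → RootApprox τ θ) →
    ∀ v : Fin P × ZMod P → A, (∀ e, v e ∈ unitary A) →
    ∀ U : Fin J → Fin (P * P / (2 * K)) → A, (∀ j i, U j i ∈ unitary A) →
      ∃ v' : Fin P × ZMod P → A, (∀ e, v' e ∈ unitary A) ∧
        ∑ e, τ.sq (v' e - v e) ≤ δ * (P : ℝ) ^ 2 ∧
        ∀ j, ∃ X : Fin (P * P / (2 * K)) → A, (∀ i, X i ∈ Algebra.adjoin ℂ (Set.range v')) ∧
          ∑ i, τ.sq (X i - U j i) ≤ 100 / (K : ℝ) ^ 2 * (P : ℝ) ^ 2 := by
  intro J
  induction J with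
  | zero =>
    intro δ hδ
    refine ⟨0, fun P _ _ _ A _ _ _ _ τ _ v hv U _ => ⟨v, hv, ?_, fun j => j.elim0⟩⟩
    simp only [sub_self, TrState.sq_zero, Finset.sum_const_zero]
    positivity
  | succ J ih =>
    intro δ hδ
    obtain ⟨d, hd1, hd2⟩ : ∃ d : ℕ, 3 ≤ d ∧ 80 / δ ≤ d :=
      ⟨⌈80 / δ⌉₊ + 3, by omega, by push_cast; linarith [Nat.le_ceil (80 / δ)]⟩
    have hdr : (3:ℝ) ≤ d := by exact_mod_cast hd1
    have hKr : (1:ℝ) ≤ K := by exact_mod_cast hK
    set L := K * d with hL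
    have hL3 : 3 ≤ L := le_trans hd1 (Nat.le_mul_of_pos_left d hK)
    have hLd : d ≤ L := Nat.le_mul_of_pos_left d hK
    have hLr : (0:ℝ) < L := by exact_mod_cast (by omega : 0 < L)
    set δ' : ℝ := min (δ / 4) (1 / (L * d * (K:ℝ) ^ 2))
    have hδ' : 0 < δ' := lt_min (by positivity) (by positivity)
    obtain ⟨P1, hP1⟩ := ih δ' hδ'
    refine ⟨max P1 L, fun P hP hP0 _ A _ _ _ _ τ happ v hv U hU => ?_⟩
    have hLP : L ≤ P := le_trans (le_max_right _ _) hP0
    have hq1 : P ≤ 2 * L * (P / L) := by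
      have h1 := Nat.lt_mul_div_succ P (by omega : 0 < L)
      have h2 : 1 ≤ P / L := (Nat.one_le_div_iff (by omega)).2 hLP
      nlinarith
    have hm : P * P / (2 * K) ≤ d * (P * (P / L)) := by
      refine Nat.div_le_of_le_mul ?_
      calc P * P ≤ P * (2 * L * (P / L)) := Nat.mul_le_mul_left P hq1
        _ = _ := by rw [hL]; ring
    obtain ⟨emb⟩ : Nonempty (Fin (P * P / (2 * K)) ↪ Fin d × ZMod P × Fin (P / L)) :=
      Function.Embedding.nonempty_of_card_le (by simpa [ZMod.card] using hm)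
    have hP2 : (0:ℝ) < (P:ℝ) ^ 2 := by
      have : (0:ℝ) < P := by exact_mod_cast hP.pos
      positivity
    have hcard : (Fintype.card (Fin d × ZMod P × Fin (P / L)) : ℝ) ≤ (P:ℝ) ^ 2 / K := by
      simp only [Fintype.card_prod, Fintype.card_fin, ZMod.card, Nat.cast_mul]
      have h1 : ((P / L : ℕ) : ℝ) ≤ (P:ℝ) / L := Nat.cast_div_le
      calc (d:ℝ) * (P * ((P / L : ℕ) : ℝ)) ≤ d * (P * ((P:ℝ) / L)) := by gcongr
        _ = _ := by rw [hL]; push_cast; field_simp
    set U0 : Fin d × ZMod P × Fin (P / L) → A := Function.extend emb (U 0) 1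
    have hU0 : ∀ t, U0 t ∈ unitary A := fun t => by
      by_cases ht : ∃ i, emb i = t
      · obtain ⟨i, rfl⟩ := ht
        simp only [U0, emb.injective.extend_apply]
        exact hU 0 i
      · simp only [U0, Function.extend_apply' _ _ _ ht]
        exact one_mem _
    obtain ⟨v1, hv1, γ, hγ, herr, hmov⟩ := stage τ (θ := 1 / (K:ℝ)) (by positivity)
      (happ _ (by positivity)) (seg_lines hP (hLd.trans hLP)) hL3 (by omega)
      (Nb := (P:ℝ) ^ 2 / K) (by positivity) hcard hv hU0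
    obtain ⟨v2, hv2, hmov2, hX⟩ := hP1 P hP (le_trans (le_max_left _ _) hP0) A τ happ v1 hv1
      (fun j => U j.succ) (fun j i => hU _ i)
    refine ⟨v2, hv2, ?_, Fin.cases ?_ hX⟩
    · have h1 : ∑ e, τ.sq (v2 e - v e) ≤
          2 * ∑ e, τ.sq (v2 e - v1 e) + 2 * ∑ e, τ.sq (v1 e - v e) := by
        rw [Finset.mul_sum, Finset.mul_sum, ← Finset.sum_add_distrib]
        refine Finset.sum_le_sum fun e _ => ?_
        rw [← sub_add_sub_cancel (v2 e) (v1 e) (v e)]
        exact τ.sq_add_le_two _ _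
      have h2 : δ' * (P:ℝ) ^ 2 ≤ δ / 4 * (P:ℝ) ^ 2 := by gcongr; exact min_le_left _ _
      have h3 : (Fintype.card (Fin P × ZMod P) : ℝ) * (20 * d / (L:ℝ) ^ 2) ≤
          δ / 4 * (P:ℝ) ^ 2 := by
        simp only [Fintype.card_prod, Fintype.card_fin, ZMod.card, Nat.cast_mul]
        rw [← pow_two, mul_comm (δ / 4)]
        refine mul_le_mul_of_nonneg_left ?_ hP2.le
        have h4 : (L:ℝ) = K * d := by rw [hL]; push_cast; ring
        rw [h4, div_le_iff₀ (by positivity)]
        have h5 := (div_le_iff₀ hδ).1 hd2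
        have h6 : (d:ℝ) * δ * d ≤ δ * ((K:ℝ) * d) ^ 2 := by
          have : (1:ℝ) ≤ (K:ℝ) ^ 2 := one_le_pow₀ hKr
          calc (d:ℝ) * δ * d = δ * (d * d) * 1 := by ring
            _ ≤ δ * (d * d) * (K:ℝ) ^ 2 := by gcongr
            _ = _ := by ring
        nlinarith
      linarith
    · refine ⟨fun i => (γ (emb i))⁻¹ • ((seg P L d (emb i)).map v2).prod, fun i => ?_, ?_⟩
      · refine Subalgebra.smul_mem _ (list_prod_mem fun x hx => ?_) _
        obtain ⟨e, -, rfl⟩ := List.mem_map.1 hx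
        exact Algebra.subset_adjoin ⟨e, rfl⟩
      · set F := fun t => τ.sq ((γ t)⁻¹ • ((seg P L d t).map v2).prod - U0 t)
        have h1 : ∑ i, F (emb i) ≤ ∑ t, F t := by
          rw [← Finset.sum_map Finset.univ emb F]
          exact Finset.sum_le_sum_of_subset_of_nonneg (Finset.subset_univ _)
            fun t _ _ => τ.sq_nonneg _
        have h2 : ∀ t, F t ≤ 2 * τ.sq (((seg P L d t).map v2).prod - ((seg P L d t).map v1).prod) +
            2 * τ.sq (((seg P L d t).map v1).prod - γ t • U0 t) := by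
          intro t
          have hne : γ t ≠ 0 := fun h => by simpa [h] using hγ t
          have e : F t = τ.sq (((seg P L d t).map v2).prod - γ t • U0 t) := by
            have e2 : ((seg P L d t).map v2).prod - γ t • U0 t =
                γ t • ((γ t)⁻¹ • ((seg P L d t).map v2).prod - U0 t) := by
              rw [smul_sub, smul_inv_smul₀ hne]
            rw [e2, τ.sq_smul, Complex.normSq_eq_norm_sq, hγ t, one_pow, one_mul]
          rw [e, ← sub_add_sub_cancel _ ((seg P L d t).map v1).prod (γ t • U0 t)]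
          exact τ.sq_add_le_two _ _
        have h3 := sum_sq_prod_sub τ (seg_lines hP (hLd.trans hLP) (L := L)) v2 v1 hv2 hv1
        have h4 : (L:ℝ) * (d * ∑ e, τ.sq (v2 e - v1 e)) ≤ 1 / (K:ℝ) ^ 2 * (P:ℝ) ^ 2 := by
          calc _ ≤ (L:ℝ) * (d * (1 / (L * d * (K:ℝ) ^ 2) * (P:ℝ) ^ 2)) := by
                gcongr
                refine hmov2.trans ?_
                gcongr
                exact min_le_right _ _
            _ = _ := by field_simp
        have h5 : (P:ℝ) ^ 2 / K * (40 * d / L + 4 * (1 / (K:ℝ))) = 44 / (K:ℝ) ^ 2 * (P:ℝ) ^ 2 := by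
          rw [hL]; push_cast; field_simp; ring
        calc ∑ i, τ.sq ((γ (emb i))⁻¹ • ((seg P L d (emb i)).map v2).prod - U 0 i)
            = ∑ i, F (emb i) := by simp only [F, U0, emb.injective.extend_apply]
          _ ≤ ∑ t, F t := h1
          _ ≤ _ := (Finset.sum_le_sum fun t _ => h2 t).trans (by
            rw [Finset.sum_add_distrib, ← Finset.mul_sum, ← Finset.mul_sum]
            have e1 : 100 / (K:ℝ) ^ 2 * (P:ℝ) ^ 2 =
                100 * (1 / (K:ℝ) ^ 2 * (P:ℝ) ^ 2) := by ring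
            have e2 : 44 / (K:ℝ) ^ 2 * (P:ℝ) ^ 2 = 44 * (1 / (K:ℝ) ^ 2 * (P:ℝ) ^ 2) := by ring
            have e3 : 0 ≤ 1 / (K:ℝ) ^ 2 * (P:ℝ) ^ 2 := by positivity
            linarith)

/-- (D) -/
theorem encodeOut : EncodeOut.{v} := by
  intro C ε hε
  obtain ⟨K, hK, hKC⟩ : ∃ K : ℕ, 0 < K ∧ 400 * (C:ℝ) / ε ≤ K :=
    ⟨⌈400 * (C:ℝ) / ε⌉₊ + 1, Nat.succ_pos _,
      by push_cast; linarith [Nat.le_ceil (400 * (C:ℝ) / ε)]⟩
  obtain ⟨P0, hP0⟩ := groups K hK (4 * K * C) 1 one_pos
  refine ⟨max P0 (2 * K), fun P hP hPP A _ _ _ _ τ happ T _ hT U hU => ?_⟩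
  have : NeZero P := ⟨hP.pos.ne'⟩
  have hm : C * P ^ 2 ≤ 4 * K * C * (P * P / (2 * K)) := by
    have h0 : 2 * K ≤ P := le_trans (le_max_right _ _) hPP
    have h1 := Nat.lt_mul_div_succ (P * P) (by omega : 0 < 2 * K)
    have h2 : 1 ≤ P * P / (2 * K) :=
      (Nat.one_le_div_iff (by omega)).2 (le_trans h0 (Nat.le_mul_of_pos_left P hP.pos))
    have h3 : P * P ≤ 4 * K * (P * P / (2 * K)) := by nlinarith
    calc C * P ^ 2 = C * (P * P) := by ring
      _ ≤ C * (4 * K * (P * P / (2 * K))) := Nat.mul_le_mul_left C h3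
      _ = _ := by ring
  obtain ⟨emb⟩ : Nonempty (T ↪ Fin (4 * K * C) × Fin (P * P / (2 * K))) :=
    Function.Embedding.nonempty_of_card_le (by simpa using hT.trans hm)
  set U' : Fin (4 * K * C) × Fin (P * P / (2 * K)) → A := Function.extend emb U 1
  have hU' : ∀ x, U' x ∈ unitary A := fun x => by
    by_cases hx : ∃ t, emb t = x
    · obtain ⟨t, rfl⟩ := hx
      simp only [U', emb.injective.extend_apply]
      exact hU t
    · simp only [U', Function.extend_apply' _ _ _ hx]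
      exact one_mem _
  obtain ⟨v', hv', -, hX⟩ := hP0 P hP (le_trans (le_max_left _ _) hPP) A τ happ (fun _ => 1)
    (fun _ => one_mem _) (fun j i => U' (j, i)) (fun j i => hU' _)
  choose X hX1 hX2 using hX
  let eqv : Fin P × Fin P ≃ Fin P × ZMod P :=
    (Equiv.refl _).prodCongr (ZMod.finEquiv P).toEquiv
  refine ⟨v' ∘ eqv, fun e => hv' _, fun t => X (emb t).1 (emb t).2, fun t => ?_, ?_⟩
  · rw [eqv.surjective.range_comp]
    exact hX1 _ _
  · set F := fun x : Fin (4 * K * C) × Fin (P * P / (2 * K)) => τ.sq (X x.1 x.2 - U' x)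
    calc ∑ t, τ.sq (X (emb t).1 (emb t).2 - U t) = ∑ t, F (emb t) := by
          simp only [F, U', emb.injective.extend_apply]
      _ ≤ ∑ x, F x := by
          rw [← Finset.sum_map Finset.univ emb F]
          exact Finset.sum_le_sum_of_subset_of_nonneg (Finset.subset_univ _)
            fun x _ _ => τ.sq_nonneg _
      _ = ∑ j, ∑ i, F (j, i) := Fintype.sum_prod_type _
      _ ≤ ∑ _j : Fin (4 * K * C), 100 / (K:ℝ) ^ 2 * (P:ℝ) ^ 2 :=
          Finset.sum_le_sum fun j _ => hX2 j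
      _ = 400 * (C:ℝ) / K * (P:ℝ) ^ 2 := by
          have : (K:ℝ) ≠ 0 := Nat.cast_ne_zero.2 hK.ne'
          simp only [Finset.sum_const, Finset.card_univ, Fintype.card_fin, nsmul_eq_mul]
          push_cast
          field_simp
          ring
      _ ≤ _ := by
          gcongr
          rw [div_le_iff₀ (by exact_mod_cast hK)]
          have := (div_le_iff₀ hε).1 hKC
          linarith

end Vale.Agent.P085.Encode
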