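import Vale.Agent.P085.Encode.Basic

/-!
# One stage: matching products along almost disjoint lines
-/

namespace Vale.Agent.P085.Encode

open scoped ComplexConjugate

variable {A : Type*} [Ring A] [StarRing A] [Algebra ℂ A] [StarModule ℂ A]
variable {S T : Type*} [Fintype S] [Fintype T] [DecidableEq S] [DecidableEq T]

/-- lines of `L` slots, two lines sharing at most one slot, at most `d` lines through a slot -/
structure Lines (line : T → List S) (L d : ℕ) : Prop where
  len : ∀ t, (line t).length = L
  nodup : ∀ t, (line t).Nodup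
  meet : ∀ t t', t ≠ t' → ∀ e e', e ∈ line t → e ∈ line t' → e' ∈ line t → e' ∈ line t' → e = e'
  deg : ∀ e, (Finset.univ.filter fun t => e ∈ line t).card ≤ d

/-- every unitary is nearly a combination of spectral projections with odd roots of unity -/
def RootApprox (τ : TrState A) (θ : ℝ) : Prop :=
  ∀ u ∈ unitary A, ∃ (h : ℕ) (E : ZMod (2 * h + 1) → A), Res E ∧
    τ.sq (spec E (fun m => ZMod.stdAddChar m) - u) ≤ θ

/-- the product of the entries after `e` -/
def sufProd (v : S → A) : List S → S → A
  | [], _ => 1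
  | a :: l, e => if a = e then (l.map v).prod else sufProd v l e

omit [StarModule ℂ A] [Algebra ℂ A] [Fintype S] in
lemma sufProd_mem {v : S → A} (hv : ∀ e, v e ∈ unitary A) :
    ∀ (l : List S) (e : S), sufProd v l e ∈ unitary A
  | [], _ => one_mem _
  | a :: l, e => by
    unfold sufProd
    split_ifs
    · exact Submonoid.list_prod_mem _ fun x hx => by
        obtain ⟨j, -, rfl⟩ := List.mem_map.1 hx; exact hv j
    · exact sufProd_mem hv l e

omit [StarModule ℂ A] [Algebra ℂ A] [Fintype S] in
lemma prod_conj {v : S → A} (hv : ∀ e, v e ∈ unitary A) (w : A) : ∀ l : List S, l.Nodup →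
    (l.map fun e => v e * (sufProd v l e * w * star (sufProd v l e))).prod =
      (l.map v).prod * w ^ l.length
  | [], _ => by simp
  | a :: l, hl => by
    rw [List.nodup_cons] at hl
    have e : (l.map fun e => v e * (sufProd v (a :: l) e * w * star (sufProd v (a :: l) e))) =
        l.map fun e => v e * (sufProd v l e * w * star (sufProd v l e)) := by
      refine List.map_congr_left fun x hx => ?_
      have : a ≠ x := fun h => hl.1 (h ▸ hx)
      simp [sufProd, this]
    have hR : star (l.map v).prod * (l.map v).prod = 1 :=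
      Unitary.star_mul_self_of_mem (Submonoid.list_prod_mem _ fun x hx => by
        obtain ⟨j, -, rfl⟩ := List.mem_map.1 hx; exact hv j)
    simp only [List.map_cons, List.prod_cons, List.length_cons, e, prod_conj hv w l hl.2]
    simp only [sufProd, if_true]
    rw [show v a * ((l.map v).prod * w * star (l.map v).prod) * ((l.map v).prod * w ^ l.length) =
      v a * (l.map v).prod * w * (star (l.map v).prod * (l.map v).prod) * w ^ l.length by noncomm_ring,
      hR, mul_one, pow_succ' w, ← mul_assoc]

lemma prod_ge {a : ℝ} (ha : 0 ≤ a) (ha1 : a ≤ 1) : ∀ l : List ℝ,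
    (∀ x ∈ l, 1 - a ≤ x ∧ x ≤ 1) → 1 - l.length * a ≤ l.prod ∧ l.prod ≤ 1 ∧ 0 ≤ l.prod
  | [], _ => by simp
  | x :: l, h => by
    obtain ⟨h1, h2, h3⟩ := prod_ge ha ha1 l fun y hy => h y (List.mem_cons_of_mem _ hy)
    obtain ⟨hx1, hx2⟩ := h x List.mem_cons_self
    have hx0 : 0 ≤ x := le_trans (by linarith) hx1
    simp only [List.prod_cons, List.length_cons, Nat.cast_succ]
    refine ⟨?_, mul_le_one₀ hx2 h3 h2, mul_nonneg hx0 h3⟩
    have := mul_le_mul_of_nonneg_right hx1 h3
    have := mul_le_mul_of_nonneg_left h2 ha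
    linarith

omit [StarRing A] [StarModule ℂ A] [Fintype S] [DecidableEq S] in
lemma avg_prod {q : T → ℕ} [∀ t, NeZero (q t)] : ∀ (l : List (Σ s : T, ZMod (q s) → A)) (c : T → ℂ),
    (∀ x ∈ l, ∑ a, x.2 a = ((q x.1 : ℂ) * c x.1) • 1) → (l.map Sigma.fst).Nodup →
      avg (fun k => (l.map fun x => x.2 (k x.1)).prod) = ((l.map Sigma.fst).map c).prod • (1 : A) := by
  intro l c
  induction l with
  | nil =>
    intro _ _
    simp only [avg, List.map_nil, List.prod_nil, Finset.sum_const, Finset.card_univ, one_smul,
      ← Nat.cast_smul_eq_nsmul ℂ, smul_smul]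
    rw [inv_mul_cancel₀ (Nat.cast_ne_zero.2 Fintype.card_ne_zero), one_smul]
  | cons x l ih =>
    intro hm hnd
    simp only [List.map_cons, List.nodup_cons] at hnd
    have hrest : Indep x.1 fun k => (l.map fun y => y.2 (k y.1)).prod := by
      intro k a
      simp only
      congr 1
      refine List.map_congr_left fun y hy => ?_
      rw [Function.update_of_ne]
      exact fun he => hnd.1 (List.mem_map.2 ⟨y, hy, he⟩)
    have hstep := avg_mul_const (X := fun _ => (1 : A))
      (Y := fun k => (l.map fun y => y.2 (k y.1)).prod) x.1 (fun _ _ => rfl) hrest x.2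
      (hm x List.mem_cons_self)
    simp only [one_mul] at hstep
    simp only [List.map_cons, List.prod_cons]
    rw [hstep, ih (fun y hy => hm y (List.mem_cons_of_mem _ hy)) hnd.2, smul_smul]

omit [StarRing A] [StarModule ℂ A] in
lemma re_avg {q : T → ℕ} [∀ t, NeZero (q t)] (f : A →ₗ[ℂ] ℂ) (F : (∀ t, ZMod (q t)) → A) :
    (f (avg F)).re = (∑ k, (f (F k)).re) / Fintype.card (∀ t, ZMod (q t)) := by
  rw [avg, map_smul, map_sum, smul_eq_mul, ← Complex.ofReal_natCast, ← Complex.ofReal_inv,
    Complex.re_ofReal_mul, Complex.re_sum]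
  ring

theorem stage (τ : TrState A) {θ : ℝ} (hθ : 0 < θ) (happ : RootApprox τ θ) {line : T → List S}
    {L d : ℕ} (hl : Lines line L d) (hL : 3 ≤ L) (hd : 0 < d) [Nonempty S] {Nb : ℝ} (hNb : 0 < Nb)
    (hT : (Fintype.card T : ℝ) ≤ Nb) {v : S → A} (hv : ∀ e, v e ∈ unitary A) {U : T → A}
    (hU : ∀ t, U t ∈ unitary A) :
    ∃ v' : S → A, (∀ e, v' e ∈ unitary A) ∧ ∃ γ : T → ℂ, (∀ t, ‖γ t‖ = 1) ∧
      ∑ t, τ.sq (((line t).map v').prod - γ t • U t) ≤ Nb * (40 * d / L + 4 * θ) ∧
      ∑ e, τ.sq (v' e - v e) ≤ Fintype.card S * (20 * d / (L : ℝ) ^ 2) := by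
  have hP : ∀ t, ((line t).map v).prod ∈ unitary A := fun t =>
    Submonoid.list_prod_mem _ fun x hx => by
      obtain ⟨j, -, rfl⟩ := List.mem_map.1 hx; exact hv j
  choose h E hE hDE using fun t =>
    happ _ (mul_mem (Unitary.star_mem (hP t)) (hU t))
  set q : T → ℕ := fun t => 2 * h t + 1
  have hq : ∀ t, NeZero (q t) := fun t => ⟨Nat.succ_ne_zero _⟩
  have hodd : ∀ t, Odd (q t) := fun t => ⟨h t, rfl⟩
  let w : ∀ t, ZMod (q t) → A := fun t a => spec (E t) fun m => rt (q t) L (m + a)
  have hw : ∀ t a, w t a ∈ unitary A := fun t a => spec_unitary (hE t) fun m => norm_rt _ _ _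
  have hwsum : ∀ t, ∑ a, w t a = ((q t : ℂ) * (rtMean (q t) L : ℂ)) • 1 := by
    intro t
    simp only [w, spec]
    rw [Finset.sum_comm]
    have hs : ∀ m, ∑ a, rt (q t) L (m + a) • E t m =
        ((q t : ℂ) * (rtMean (q t) L : ℂ)) • E t m := fun m => by
      have hc := Equiv.sum_comp (Equiv.addLeft m) (fun j => rt (q t) L j)
      simp only [Equiv.coe_addLeft] at hc
      rw [← Finset.sum_smul, hc, sum_rt (q t) L (hodd t)]
      push_cast
      ring_nf
    simp only [hs]
    rw [← Finset.smul_sum, (hE t).total]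
  let g : ∀ t, S → ZMod (q t) → A := fun t e a =>
    sufProd v (line t) e * w t a * star (sufProd v (line t) e)
  have hg : ∀ t e a, g t e a ∈ unitary A := fun t e a =>
    mul_mem (mul_mem (sufProd_mem hv _ _) (hw t a)) (Unitary.star_mem (sufProd_mem hv _ _))
  have hgsum : ∀ t e, ∑ a, g t e a = ((q t : ℂ) * (rtMean (q t) L : ℂ)) • 1 := fun t e => by
    simp only [g, ← Finset.sum_mul, ← Finset.mul_sum, hwsum, mul_smul_comm, smul_mul_assoc, mul_one,
      Unitary.mul_star_self_of_mem (sufProd_mem hv _ _)]
  let thr : S → List T := fun e => (Finset.univ.filter fun t => e ∈ line t).toList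
  have hthr : ∀ e t, t ∈ thr e ↔ e ∈ line t := fun e t => by simp [thr]
  have hthrd : ∀ e, (thr e).length ≤ d := fun e => by simpa [thr] using hl.deg e
  let items : S → List (Σ s : T, ZMod (q s) → A) := fun e =>
    (thr e).map fun t => ⟨t, g t e⟩
  let v' : (∀ t, ZMod (q t)) → S → A := fun k e =>
    v e * ((items e).map fun x => x.2 (k x.1)).prod
  have hv' : ∀ k e, v' k e ∈ unitary A := fun k e => mul_mem (hv e)
    (Submonoid.list_prod_mem _ fun x hx => by
      obtain ⟨y, hy, rfl⟩ := List.mem_map.1 hx
      obtain ⟨t, -, rfl⟩ := List.mem_map.1 hy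
      exact hg t e _)
  set a5 := 5 / (L : ℝ) ^ 2
  have ha50 : 0 ≤ a5 := by positivity
  have ha51 : a5 ≤ 1 := by
    simp only [a5]
    rw [div_le_one (by positivity)]
    have : (3:ℝ) ≤ L := by exact_mod_cast hL
    nlinarith
  have hcb : ∀ l : List T, 1 - l.length * a5 ≤ (l.map fun t => rtMean (q t) L).prod ∧
      (l.map fun t => rtMean (q t) L).prod ≤ 1 := fun l => by
    obtain ⟨h1, h2, -⟩ := prod_ge ha50 ha51 (l.map fun t => rtMean (q t) L) fun x hx => by
      obtain ⟨t, -, rfl⟩ := List.mem_map.1 hx
      obtain ⟨-, b1, b2⟩ := rtMean_bounds (q t) L hL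
      exact ⟨by linarith, b1⟩
    rw [List.length_map] at h1
    exact ⟨h1, h2⟩
  have hcast : ∀ l : List T, (l.map fun t => ((rtMean (q t) L : ℝ) : ℂ)).prod =
      (((l.map fun t => rtMean (q t) L).prod : ℝ) : ℂ) := fun l => by
    induction l with
    | nil => simp
    | cons a l ih => simp [ih]
  set N : ℝ := ((Fintype.card (∀ t, ZMod (q t)) : ℕ) : ℝ) with hN
  have hNpos : 0 < N := by rw [hN]; exact_mod_cast Fintype.card_pos
  -- the movement of a slot
  have hmove : ∀ e, ∑ k, τ.sq (v' k e - v e) ≤ N * (10 * d / (L:ℝ) ^ 2) := by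
    intro e
    have hfst : (items e).map Sigma.fst = thr e := by
      simp [items, List.map_map, Function.comp_def]
    have hav := avg_prod (A := A) (items e) (fun t => ((rtMean (q t) L : ℝ) : ℂ))
      (fun x hx => by
        obtain ⟨t, -, rfl⟩ := List.mem_map.1 hx
        exact hgsum t e) (by rw [hfst]; exact Finset.nodup_toList _)
    rw [hfst, hcast] at hav
    have hre := re_avg (q := q) τ.φ fun k => ((items e).map fun x => x.2 (k x.1)).prod
    rw [hav, map_smul, τ.one, smul_eq_mul, mul_one, Complex.ofReal_re, eq_div_iff hNpos.ne'] at hre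
    have heq : ∀ k, τ.sq (v' k e - v e) =
        2 - 2 * (τ.φ ((items e).map fun x => x.2 (k x.1)).prod).re := fun k => by
      rw [τ.sq_sub_unitary (hv' k e) (hv e)]
      simp only [v', ← mul_assoc, Unitary.star_mul_self_of_mem (hv e), one_mul]
    simp only [heq, Finset.sum_sub_distrib, Finset.sum_const, Finset.card_univ, nsmul_eq_mul,
      ← Finset.mul_sum, ← hre, ← hN]
    obtain ⟨h1, -⟩ := hcb (thr e)
    have h3 : ((thr e).length : ℝ) * a5 ≤ d * a5 := by gcongr; exact_mod_cast hthrd e
    have h4 : (d : ℝ) * a5 * 2 = 10 * d / (L:ℝ) ^ 2 := by simp only [a5]; ring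
    rw [← h4]
    have := mul_le_mul_of_nonneg_left (show 1 - (d:ℝ) * a5 ≤ _ from le_trans (by linarith) h1) hNpos.le
    linarith
  -- the error on a line
  have herr : ∀ t, ∑ k, τ.sq (((line t).map (v' k)).prod -
      ZMod.stdAddChar (k t) • U t) ≤ N * (20 * d / (L:ℝ) + 2 * θ) := by
    intro t
    let word : List (Σ s : T, ZMod (q s) → A) :=
      (line t).flatMap fun e => ⟨t, fun _ => v e⟩ :: items e
    have hword : ∀ k, ((line t).map (v' k)).prod = (word.map fun x => x.2 (k x.1)).prod := by
      intro k
      simp only [word]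
      induction line t with
      | nil => simp
      | cons a l ih => simp [List.flatMap_cons, ih, v', mul_assoc]
    let Y : (∀ t, ZMod (q t)) → A := fun k => ((line t).map v).prod * w t (k t) ^ L
    have hY : ∀ k, Y k ∈ unitary A := fun k => mul_mem (hP t) (pow_mem (hw _ _) _)
    have hkeep : ∀ k, ((word.filter fun x => decide (x.1 = t)).map fun x => x.2 (k x.1)).prod = Y k := by
      intro k
      have hpc := prod_conj hv (w t (k t)) (line t) (hl.nodup t)
      rw [hl.len] at hpc
      simp only [Y, ← hpc, word, List.filter_flatMap, List.map_flatMap]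
      have hone : ∀ e ∈ line t, ((items e).filter fun x => decide (x.1 = t)) = [⟨t, g t e⟩] := by
        intro e he
        simp only [items, List.filter_map, Function.comp_def]
        have hf : (thr e).filter (fun s => decide (s = t)) = [t] := by
          rw [show (fun s : T => decide (s = t)) = (fun s => s == t) from funext fun s => by simp [beq_eq_decide]]
          rw [List.filter_beq, List.count_eq_one_of_mem (Finset.nodup_toList _) ((hthr e t).2 he)]
          rfl
        rw [hf]; rfl
      rw [← List.flatMap_pure_eq_map, List.flatMap_def, List.flatMap_def, List.prod_flatten,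
        List.prod_flatten]
      congr 1
      simp only [List.map_map]
      refine List.map_congr_left fun e he => ?_
      simp [List.filter_cons, hone e he, g]
    have hfst : (word.map Sigma.fst).filter (fun s => decide (s ≠ t)) =
        (line t).flatMap fun e => (thr e).filter fun s => decide (s ≠ t) := by
      simp only [word, List.map_flatMap, List.filter_flatMap, List.map_cons, List.filter_cons,
        ne_eq, not_true_eq_false, decide_false, Bool.false_eq_true, if_false]
      simp [items, List.map_map, Function.comp_def]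
    have hnd : ((word.map Sigma.fst).filter fun s => decide (s ≠ t)).Nodup := by
      rw [hfst, List.nodup_flatMap]
      refine ⟨fun e _ => (Finset.nodup_toList _).filter _, ?_⟩
      refine List.Pairwise.imp_of_mem (fun {e e'} he he' hne => ?_) (hl.nodup t)
      intro s hs hs'
      simp only [List.mem_filter, decide_eq_true_eq] at hs hs'
      exact hne (hl.meet t s (Ne.symm hs.2) e e' he ((hthr e s).1 hs.1) he' ((hthr e' s).1 hs'.1))
    have hlen : (((word.map Sigma.fst).filter fun s => decide (s ≠ t)).length : ℝ) ≤ L * d := by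
      rw [hfst, List.length_flatMap]
      have : ((line t).map fun e => ((thr e).filter fun s => decide (s ≠ t)).length).sum ≤
          (line t).length * d := by
        have h1 := List.sum_le_card_nsmul
          ((line t).map fun e => ((thr e).filter fun s => decide (s ≠ t)).length) d (fun x hx => by
            obtain ⟨e, -, rfl⟩ := List.mem_map.1 hx
            exact (List.length_filter_le _ _).trans (hthrd e))
        simpa [smul_eq_mul] using h1
      rw [hl.len] at this
      exact_mod_cast this
    have hav := avg_word t word (fun s => ((rtMean (q s) L : ℝ) : ℂ)) (fun x hx hxt => by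
        simp only [word, List.mem_flatMap, List.mem_cons] at hx
        obtain ⟨e, -, rfl | hx⟩ := hx
        · exact absurd rfl hxt
        · obtain ⟨s, -, rfl⟩ := List.mem_map.1 hx
          exact hgsum s e) hnd (fun k => star (Y k)) (fun x _ hxt k a => by
        simp only [Y, Function.update_of_ne (Ne.symm hxt)])
    simp only [← hword, hkeep] at hav
    have h1avg : avg (fun k => star (Y k) * Y k) = (1 : A) := by
      simp only [Unitary.star_mul_self_of_mem (hY _), avg, Finset.sum_const, Finset.card_univ,
        ← Nat.cast_smul_eq_nsmul ℂ, smul_smul]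
      rw [inv_mul_cancel₀ (Nat.cast_ne_zero.2 Fintype.card_ne_zero), one_smul]
    rw [h1avg, hcast] at hav
    have hre := re_avg (q := q) τ.φ fun k => star (Y k) * ((line t).map (v' k)).prod
    rw [hav, map_smul, τ.one, smul_eq_mul, mul_one, Complex.ofReal_re, eq_div_iff hNpos.ne']
      at hre
    have hPk : ∀ k, ((line t).map (v' k)).prod ∈ unitary A := fun k =>
      Submonoid.list_prod_mem _ fun x hx => by
        obtain ⟨j, -, rfl⟩ := List.mem_map.1 hx; exact hv' k j
    have h5 : ∑ k, τ.sq (((line t).map (v' k)).prod - Y k) ≤ N * (10 * d / L) := by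
      simp only [τ.sq_sub_unitary (hPk _) (hY _), Finset.sum_sub_distrib, Finset.sum_const,
        Finset.card_univ, nsmul_eq_mul, ← Finset.mul_sum, ← hre, ← hN]
      obtain ⟨b1, -⟩ := hcb ((word.map Sigma.fst).filter fun s => decide (s ≠ t))
      have b2 := mul_le_mul_of_nonneg_right hlen ha50
      have b3 : (L : ℝ) * d * a5 * 2 = 10 * d / L := by simp only [a5]; field_simp; ring
      rw [← b3]
      have := mul_le_mul_of_nonneg_left (show 1 - (L:ℝ) * d * a5 ≤ _ from le_trans (by linarith) b1)
        hNpos.le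
      linarith
    have h6 : ∀ k, τ.sq (Y k - ZMod.stdAddChar (k t) • U t) ≤ θ := by
      intro k
      have hwL : w t (k t) ^ L =
          ZMod.stdAddChar (k t) • spec (E t) (fun m => ZMod.stdAddChar m) := by
        simp only [w, spec_pow (hE t)]
        simp only [spec, Finset.smul_sum, smul_smul, Pi.pow_apply]
        refine Finset.sum_congr rfl fun m _ => ?_
        rw [rt_pow _ _ (by omega), AddChar.map_add_eq_mul, mul_comm]
      have hn : Complex.normSq (ZMod.stdAddChar (k t)) = 1 := by
        rw [Complex.normSq_eq_norm_sq, AddChar.norm_apply]; norm_num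
      have e : Y k - ZMod.stdAddChar (k t) • U t = ZMod.stdAddChar (k t) •
          (((line t).map v).prod * (spec (E t) (fun m => ZMod.stdAddChar m) -
            star ((line t).map v).prod * U t)) := by
        simp only [Y, hwL, mul_sub, smul_sub, mul_smul_comm, ← mul_assoc,
          Unitary.mul_star_self_of_mem (hP t), one_mul]
      rw [e, τ.sq_smul, hn, one_mul, τ.sq_unitary_mul (hP t)]
      exact hDE t
    calc ∑ k, τ.sq (((line t).map (v' k)).prod - ZMod.stdAddChar (k t) • U t)
        ≤ ∑ k, (2 * τ.sq (((line t).map (v' k)).prod - Y k) + 2 * θ) := by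
          refine Finset.sum_le_sum fun k _ => ?_
          rw [← sub_add_sub_cancel (((line t).map (v' k)).prod) (Y k) (ZMod.stdAddChar (k t) • U t)]
          exact (τ.sq_add_le_two _ _).trans (by linarith [h6 k])
      _ ≤ _ := by
          rw [Finset.sum_add_distrib, ← Finset.mul_sum, Finset.sum_const, Finset.card_univ,
            nsmul_eq_mul, ← hN]
          have : N * (20 * d / (L:ℝ) + 2 * θ) = 2 * (N * (10 * d / L)) + N * (2 * θ) := by ring
          rw [this]
          linarith
  -- choice of the phases
  set e1 := Nb * (20 * d / (L:ℝ) + 2 * θ)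
  set e2 := (Fintype.card S : ℝ) * (10 * d / (L:ℝ) ^ 2)
  have he1 : 0 < e1 := by positivity
  have he2 : 0 < e2 := by
    have : (0:ℝ) < Fintype.card S := by exact_mod_cast Fintype.card_pos
    have : (0:ℝ) < L := by exact_mod_cast (by omega : 0 < L)
    positivity
  let f1 := fun k => ∑ t, τ.sq (((line t).map (v' k)).prod - ZMod.stdAddChar (k t) • U t)
  let f2 := fun k => ∑ e, τ.sq (v' k e - v e)
  have hs1 : ∑ k, f1 k ≤ N * e1 := by
    simp only [f1]
    rw [Finset.sum_comm]
    refine (Finset.sum_le_sum fun t _ => herr t).trans ?_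
    simp only [Finset.sum_const, Finset.card_univ, nsmul_eq_mul, e1]
    have : 0 ≤ N * (20 * d / (L:ℝ) + 2 * θ) := by positivity
    calc (Fintype.card T : ℝ) * (N * (20 * d / L + 2 * θ)) ≤ Nb * (N * (20 * d / L + 2 * θ)) := by
          gcongr
      _ = _ := by ring
  have hs2 : ∑ k, f2 k ≤ N * e2 := by
    simp only [f2]
    rw [Finset.sum_comm]
    refine (Finset.sum_le_sum fun e _ => hmove e).trans (le_of_eq ?_)
    simp only [Finset.sum_const, Finset.card_univ, nsmul_eq_mul, e2]
    ring
  obtain ⟨k, -, hk⟩ := Finset.exists_le_of_sum_le (s := Finset.univ)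
    (f := fun k => f1 k / e1 + f2 k / e2) (g := fun _ => (2:ℝ)) Finset.univ_nonempty (by
      rw [Finset.sum_add_distrib, ← Finset.sum_div, ← Finset.sum_div, Finset.sum_const,
        Finset.card_univ, nsmul_eq_mul, ← hN]
      have := (div_le_iff₀ he1).2 hs1
      have := (div_le_iff₀ he2).2 hs2
      linarith)
  have n1 : 0 ≤ f1 k / e1 := div_nonneg (Finset.sum_nonneg fun t _ => τ.sq_nonneg _) he1.le
  have n2 : 0 ≤ f2 k / e2 := div_nonneg (Finset.sum_nonneg fun t _ => τ.sq_nonneg _) he2.le
  refine ⟨v' k, hv' k, fun t => ZMod.stdAddChar (k t), fun t => AddChar.norm_apply _ _, ?_, ?_⟩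
  · have := (div_le_iff₀ he1).1 (show f1 k / e1 ≤ 2 by linarith)
    simp only [f1, e1] at this
    refine this.trans (le_of_eq ?_)
    ring
  · have := (div_le_iff₀ he2).1 (show f2 k / e2 ≤ 2 by linarith)
    simp only [f2, e2] at this
    refine this.trans (le_of_eq ?_)
    ring

end Vale.Agent.P085.Encode
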