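import Vale.Agent.P085.Encode.Stage

/-!
# The encoding theorem, as an interface
-/

namespace Vale.Agent.P085.Encode

universe v

/-- (D) any `C * P ^ 2` targets are matched, in mean square, from `P ^ 2` unitaries -/
def EncodeOut : Prop :=
  ∀ (C : ℕ) (ε : ℝ), 0 < ε → ∃ P0 : ℕ, ∀ P : ℕ, P.Prime → P0 ≤ P →
    ∀ (A : Type v) [Ring A] [StarRing A] [Algebra ℂ A] [StarModule ℂ A] (τ : TrState A),
    (∀ θ : ℝ, 0 < θ → RootApprox τ θ) → ∀ (T : Type) [Fintype T], Fintype.card T ≤ C * P ^ 2 →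
    ∀ U : T → A, (∀ t, U t ∈ unitary A) →
      ∃ w : Fin P × Fin P → A, (∀ e, w e ∈ unitary A) ∧
        ∃ X : T → A, (∀ t, X t ∈ Algebra.adjoin ℂ (Set.range w)) ∧
          ∑ t, τ.sq (X t - U t) ≤ ε * (P : ℝ) ^ 2

end Vale.Agent.P085.Encode
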